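import Vale.Agent.P156.H942.Select

/-! # The conditions T4, T5 in volume form from `SpecLL`, `SpecUI` -/

open MeasureTheory Filter Topology Matrix Finset

namespace Vale.Agent.P156.H942

noncomputable section

open Vale.Agent.P156.H801

/-- Markov's inequality for interval integrals -/
theorem vol_of_integral {a b : ℝ} (hab : a ≤ b) {F : ℝ → ℝ} (hm : Measurable F) (h0 : ∀ E, 0 ≤ F E)
    {C : ℝ} (hC : ∀ E, F E ≤ C) {c ε δ : ℝ} (hint : ∫ E in a..b, F E ≤ c) (hε : 0 < ε)
    (hcd : c ≤ ε * δ) :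
    volume {E : ℝ | E ∈ Set.Icc a b ∧ ε < F E} ≤ ENNReal.ofReal δ := by
  have hi : Integrable F (volume.restrict (Set.Icc a b)) := by
    refine Integrable.mono' (integrable_const C) hm.aestronglyMeasurable
      (Eventually.of_forall fun E => ?_)
    rw [Real.norm_eq_abs, abs_of_nonneg (h0 E)]
    exact hC E
  have h1 : ∫⁻ E in Set.Icc a b, ENNReal.ofReal (F E) ≤ ENNReal.ofReal c := by
    rw [← ofReal_integral_eq_lintegral_ofReal hi (Eventually.of_forall h0)]
    refine ENNReal.ofReal_le_ofReal ?_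
    rw [intervalIntegral.integral_of_le hab, ← integral_Icc_eq_integral_Ioc] at hint
    exact hint
  refine (markov_lint hm h1 hε).trans (ENNReal.ofReal_le_ofReal ?_)
  rw [div_le_iff₀ hε]
  linarith

theorem measurable_mE (d : ℕ) : Measurable (mE d) := by
  unfold mE
  fun_prop

theorem measurable_mdE (d : ℕ) : Measurable (mdE d) := by
  have h := measurable_mE d
  unfold mdE
  fun_prop

theorem measurable_KE (d K : ℕ) (x y : Fin K × Option (Fin d)) :
    Measurable (fun E : ℝ => KE d E K x y) := by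
  have h1 := measurable_mE d
  have h2 := measurable_mdE d
  unfold KE
  by_cases h : x.1 = y.1
  · simp only [h, if_true]
    fun_prop
  · simp only [h, if_false]
    exact measurable_const

theorem measurableSet_T4 {n d K : ℕ} (ω : SimpleGraph (Fin n) × StarPos n d K) (ε η : ℝ) :
    MeasurableSet {E : ℝ | ∃ x y,
      ε < ‖starMat ω ((E : ℂ) + ((η : ℝ) : ℂ) * Complex.I) x y - KE d E K x y‖} := by
  have : {E : ℝ | ∃ x y,
      ε < ‖starMat ω ((E : ℂ) + ((η : ℝ) : ℂ) * Complex.I) x y - KE d E K x y‖} =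
      ⋃ x, ⋃ y, {E : ℝ |
        ε < ‖starMat ω ((E : ℂ) + ((η : ℝ) : ℂ) * Complex.I) x y - KE d E K x y‖} := by
    ext E
    simp
  rw [this]
  refine MeasurableSet.iUnion fun x => MeasurableSet.iUnion fun y =>
    measurableSet_lt measurable_const ?_
  have h1 : Measurable fun E : ℝ => starMat ω ((E : ℂ) + ((η : ℝ) : ℂ) * Complex.I) x y := by
    unfold starMat
    simp only [submatrix_apply]
    refine (measurable_resD (adj ω.1) ∅ (pos ω x) (pos ω y)).comp ?_
    fun_prop
  exact (h1.sub (measurable_KE d K x y)).norm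

theorem T4_vol {d : ℕ} (h : SpecLL d) (a b : ℝ) (hab : a < b)
    (ha : -(2 * Real.sqrt ((d : ℝ) - 1)) < a) (hb : b < 2 * Real.sqrt ((d : ℝ) - 1)) :
    T4Vol d a b := by
  intro K ε hε δ hδ
  set ε' : ℝ := min ε (ε * δ) with hε'
  have hε'0 : 0 < ε' := lt_min hε (mul_pos hε hδ)
  obtain ⟨L₀, hL₀⟩ := h a b hab ha hb K ε' hε'0
  refine ⟨L₀, fun L hL => ?_⟩
  filter_upwards [hL₀ L hL] with n hn
  have h1 := vol_of_integral (ε := ε) (δ := δ) hab.le (F := fun E => prob (WW n d K)
    (fun ω => ∃ x y, ε' < ‖starMat ω ((E : ℂ) + ((L / n : ℝ) : ℂ) * Complex.I) x y -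
      KE d E K x y‖)) (measurable_prob _ fun ω _ => measurableSet_T4 ω ε' (L / n))
    (fun E => prob_nonneg _ _) (C := 1) (fun E => prob_le_one _ _) hn hε (min_le_right _ _)
  refine (measure_mono ?_).trans h1
  rintro E ⟨hE1, hE2⟩
  refine ⟨hE1, hE2.trans_le (prob_mono fun ω _ => ?_)⟩
  rintro ⟨x, y, hxy⟩
  exact ⟨x, y, (min_le_left _ _).trans_lt hxy⟩

theorem T5_vol {d : ℕ} (h : SpecUI d) (a b : ℝ) (hab : a < b)
    (ha : -(2 * Real.sqrt ((d : ℝ) - 1)) < a) (hb : b < 2 * Real.sqrt ((d : ℝ) - 1)) :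
    T5Vol d a b := by
  intro B ε hε δ hδ
  obtain ⟨M, hM⟩ := h a b hab ha hb B (ε * δ) (mul_pos hε hδ)
  refine ⟨M, ?_⟩
  filter_upwards [hM] with n hn
  refine vol_of_integral (ε := ε) (δ := δ) hab.le (F := fun E => avg (WW n d 1) (fun ω => ∑ i,
      if |xx E ω.1 i| ≤ B ∧ M < phi ω.1 i (ω.2.1 0) ^ 2
        then phi ω.1 i (ω.2.1 0) ^ 2 else 0)) ?_ ?_
    (C := avg (WW n d 1) (fun ω => ∑ i, phi ω.1 i (ω.2.1 0) ^ 2)) ?_ hn hε le_rfl
  · refine measurable_avg _ fun ω _ => Finset.measurable_fun_sum _ fun i _ => ?_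
    refine Measurable.ite ?_ measurable_const measurable_const
    by_cases hM' : M < phi ω.1 i (ω.2.1 0) ^ 2
    · simp only [hM', and_true]
      unfold xx
      exact measurableSet_le (by fun_prop) measurable_const
    · simp only [hM', and_false]
      exact MeasurableSet.const _
  · intro E
    refine avg_nonneg fun ω _ => Finset.sum_nonneg fun i _ => ?_
    split_ifs <;> positivity
  · intro E
    refine avg_mono fun ω _ => Finset.sum_le_sum fun i _ => ?_
    split_ifs
    · exact le_rfl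
    · positivity

/-- **Selection of good energies.** -/
theorem specMain_of {d : ℕ} (hd : 3 ≤ d) (h1 : SpecGoodLimit d) (hLL : SpecLL d)
    (hUI : SpecUI d) : SpecMain d :=
  specMain_of_vol hd h1 (T4_vol hLL) (T5_vol hUI)

end

end Vale.Agent.P156.H942
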