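import Vale.Agent.P156.H942.Sel
import Vale.Agent.P156.H801.Tight
import Vale.Agent.P156.R2.Spec

/-! # Selection of good energies: `SpecGoodLimit → SpecMain` -/

open MeasureTheory Filter Topology Matrix Finset

namespace Vale.Agent.P156.H942

noncomputable section

open Vale.Agent.P156.H801

/-- the local law condition in volume form -/
def T4Vol (d : ℕ) (a b : ℝ) : Prop :=
  ∀ K : ℕ, ∀ ε > 0, ∀ δ > 0, ∃ L₀ : ℝ, ∀ L ≥ L₀, ∀ᶠ n in admissible d,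
    volume {E : ℝ | E ∈ Set.Icc a b ∧ ε < prob (WW n d K) (fun ω => ∃ x y,
      ε < ‖starMat ω ((E : ℂ) + ((L / n : ℝ) : ℂ) * Complex.I) x y - KE d E K x y‖)} ≤
        ENNReal.ofReal δ

/-- the uniform integrability in volume form -/
def T5Vol (d : ℕ) (a b : ℝ) : Prop :=
  ∀ B : ℝ, ∀ ε > 0, ∀ δ > 0, ∃ M : ℝ, ∀ᶠ n in admissible d,
    volume {E : ℝ | E ∈ Set.Icc a b ∧ ε < avg (WW n d 1) (fun ω => ∑ i,
      if |xx E ω.1 i| ≤ B ∧ M < phi ω.1 i (ω.2.1 0) ^ 2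
        then phi ω.1 i (ω.2.1 0) ^ 2 else 0)} ≤ ENNReal.ofReal δ

theorem admissible_le_atTop (d : ℕ) : admissible d ≤ atTop := inf_le_left

theorem prob_mono {α : Type*} {s : Finset α} {P Q : α → Prop} (h : ∀ ω ∈ s, P ω → Q ω) :
    prob s P ≤ prob s Q := by
  classical
  unfold prob
  refine avg_mono fun ω hω => ?_
  by_cases hP : P ω
  · rw [if_pos hP, if_pos (h ω hω hP)]
  · rw [if_neg hP]
    split_ifs <;> norm_num

theorem exists_inv_le {ε : ℝ} (hε : 0 < ε) : ∃ k : ℕ, 1 / ((k : ℝ) + 1) ≤ ε :=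
  (exists_nat_one_div_lt hε).imp fun _ h => h.le

theorem inv_pos' (k : ℕ) : 0 < 1 / ((k : ℝ) + 1) := by positivity

section sel

variable (d : ℕ) (a b : ℝ)

/-- Lebesgue measure on the interval -/
def mu : Measure ℝ := volume.restrict (Set.Ioc a b)

theorem mu_le (s : Set ℝ) : mu a b s ≤ volume s := Measure.restrict_le_self s

theorem mu_compl : mu a b (Set.Icc a b)ᶜ = 0 := by
  unfold mu
  rw [Measure.restrict_apply measurableSet_Icc.compl]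
  have : (Set.Icc a b)ᶜ ∩ Set.Ioc a b = ∅ := by
    ext x
    simp only [Set.mem_inter_iff, Set.mem_compl_iff, Set.mem_Icc, Set.mem_Ioc,
      Set.mem_empty_iff_false, iff_false]
    rintro ⟨h1, h2, h3⟩
    exact h1 ⟨h2.le, h3⟩
  rw [this]
  exact measure_empty

theorem mu_union_compl_le {s : Set ℝ} {δ : ℝ} (h : volume s ≤ ENNReal.ofReal δ) :
    mu a b (s ∪ (Set.Icc a b)ᶜ) ≤ ENNReal.ofReal δ := by
  refine (measure_union_le _ _).trans ?_
  rw [mu_compl, add_zero]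
  exact (mu_le a b s).trans h

theorem sel_T1 : Sel (mu a b) (admissible d) (fun 𝒰 E => ∀ ε > 0, ∃ B : ℝ,
    ∀ᶠ n in (𝒰 : Filter ℕ), avg (regularGraphs n d)
      (fun G => ∑ i, if B < |xx (E n) G i| then (xx (E n) G i ^ 2)⁻¹ else 0) ≤ ε) := by
  have h1 : ∀ k : ℕ, Sel (mu a b) (admissible d) (fun 𝒰 E => ∃ B : ℝ,
      ∀ᶠ n in (𝒰 : Filter ℕ), avg (regularGraphs n d)
        (fun G => ∑ i, if B < |xx (E n) G i| then (xx (E n) G i ^ 2)⁻¹ else 0) ≤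
          1 / ((k : ℝ) + 1)) := by
    intro k
    refine Sel.of_bad fun δ hδ => ?_
    obtain ⟨B, hB⟩ := T1_vol d (inv_pos' k) hδ
    refine ⟨_, Eventually.of_forall fun n => (mu_le a b _).trans (hB n), fun 𝒰 E hE => ⟨B, ?_⟩⟩
    filter_upwards [hE] with n hn
    exact not_lt.1 hn
  refine (Sel.all (admissible_le_atTop d) h1).mono fun 𝒰 E h ε hε => ?_
  obtain ⟨k, hk⟩ := exists_inv_le hε
  obtain ⟨B, hB⟩ := h k
  refine ⟨B, ?_⟩
  filter_upwards [hB] with n hn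
  exact hn.trans hk

theorem sel_T1' : Sel (mu a b) (admissible d) (fun 𝒰 E => ∀ B : ℝ, ∃ C : ℝ,
    ∀ᶠ n in (𝒰 : Filter ℕ), avg (regularGraphs n d)
      (fun G => ∑ i, if |xx (E n) G i| ≤ B then 1 else 0) ≤ C) := by
  have h1 : ∀ k : ℕ, Sel (mu a b) (admissible d) (fun 𝒰 E => ∃ C : ℝ,
      ∀ᶠ n in (𝒰 : Filter ℕ), avg (regularGraphs n d)
        (fun G => ∑ i, if |xx (E n) G i| ≤ (k : ℝ) then 1 else 0) ≤ C) := by
    intro k
    refine Sel.of_bad fun δ hδ => ?_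
    obtain ⟨C, hC⟩ := T1'_vol d k hδ
    refine ⟨_, Eventually.of_forall fun n => (mu_le a b _).trans (hC n), fun 𝒰 E hE => ⟨C, ?_⟩⟩
    filter_upwards [hE] with n hn
    exact not_lt.1 hn
  refine (Sel.all (admissible_le_atTop d) h1).mono fun 𝒰 E h B => ?_
  obtain ⟨k, hk⟩ := exists_nat_ge B
  obtain ⟨C, hC⟩ := h k
  refine ⟨C, ?_⟩
  filter_upwards [hC] with n hn
  refine le_trans (avg_mono fun G _ => Finset.sum_le_sum fun i _ => ?_) hn
  by_cases h : |xx (E n) G i| ≤ B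
  · rw [if_pos h, if_pos (h.trans hk)]
  · rw [if_neg h]
    positivity

theorem sel_T2 : Sel (mu a b) (admissible d) (fun 𝒰 E => ∀ ε > 0, ∃ δ > 0,
    ∀ᶠ n in (𝒰 : Filter ℕ),
      prob (regularGraphs n d) (fun G => ∃ i, |xx (E n) G i| ≤ δ) ≤ ε) := by
  have h1 : ∀ k : ℕ, Sel (mu a b) (admissible d) (fun 𝒰 E => ∃ δ > 0,
      ∀ᶠ n in (𝒰 : Filter ℕ),
        prob (regularGraphs n d) (fun G => ∃ i, |xx (E n) G i| ≤ δ) ≤ 1 / ((k : ℝ) + 1)) := by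
    intro k
    refine Sel.of_bad fun δ hδ => ?_
    obtain ⟨δ', hδ', hB⟩ := T2_vol d (inv_pos' k) hδ
    refine ⟨_, Eventually.of_forall fun n => (mu_le a b _).trans (hB n),
      fun 𝒰 E hE => ⟨δ', hδ', ?_⟩⟩
    filter_upwards [hE] with n hn
    exact not_lt.1 hn
  refine (Sel.all (admissible_le_atTop d) h1).mono fun 𝒰 E h ε hε => ?_
  obtain ⟨k, hk⟩ := exists_inv_le hε
  obtain ⟨δ', hδ', hB⟩ := h k
  refine ⟨δ', hδ', ?_⟩
  filter_upwards [hB] with n hn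
  exact hn.trans hk

theorem sel_T3 : Sel (mu a b) (admissible d) (fun 𝒰 E => ∀ K : ℕ, ∀ ε > 0, ∃ B : ℝ,
    ∀ᶠ n in (𝒰 : Filter ℕ),
      prob (WW n d K) (fun ω => ∃ x y, B < ‖leadMat ω (E n : ℂ) x y‖) ≤ ε) := by
  have h1 : ∀ p : ℕ × ℕ, Sel (mu a b) (admissible d) (fun 𝒰 E => ∃ B : ℝ,
      ∀ᶠ n in (𝒰 : Filter ℕ),
        prob (WW n d p.1) (fun ω => ∃ x y, B < ‖leadMat ω (E n : ℂ) x y‖) ≤
          1 / ((p.2 : ℝ) + 1)) := by
    rintro ⟨K, k⟩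
    refine Sel.of_bad fun δ hδ => ?_
    obtain ⟨B, hB⟩ := T3_vol d K (inv_pos' k) hδ
    refine ⟨_, Eventually.of_forall fun n => (mu_le a b _).trans (hB n), fun 𝒰 E hE => ⟨B, ?_⟩⟩
    filter_upwards [hE] with n hn
    exact not_lt.1 hn
  refine (Sel.all (admissible_le_atTop d) h1).mono fun 𝒰 E h K ε hε => ?_
  obtain ⟨k, hk⟩ := exists_inv_le hε
  obtain ⟨B, hB⟩ := h (K, k)
  refine ⟨B, ?_⟩
  filter_upwards [hB] with n hn
  exact hn.trans hk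

variable {d a b}

theorem sel_T4 (h4 : T4Vol d a b) : Sel (mu a b) (admissible d) (fun 𝒰 E => ∀ K : ℕ, ∀ ε > 0,
    ∃ L₀ : ℝ, ∀ L ≥ L₀, ∃ L' ≥ L, ∀ᶠ n in (𝒰 : Filter ℕ),
      prob (WW n d K) (fun ω => ∃ x y,
        ε < ‖starMat ω ((E n : ℂ) + ((L' / n : ℝ) : ℂ) * Complex.I) x y - KE d (E n) K x y‖) ≤
          ε) := by
  have h1 : ∀ p : ℕ × ℕ × ℕ, Sel (mu a b) (admissible d) (fun 𝒰 E => ∃ L' ≥ (p.2.2 : ℝ),
      ∀ᶠ n in (𝒰 : Filter ℕ), prob (WW n d p.1) (fun ω => ∃ x y,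
        1 / ((p.2.1 : ℝ) + 1) < ‖starMat ω ((E n : ℂ) + ((L' / n : ℝ) : ℂ) * Complex.I) x y -
          KE d (E n) p.1 x y‖) ≤ 1 / ((p.2.1 : ℝ) + 1)) := by
    rintro ⟨K, k, j⟩
    refine Sel.of_bad fun δ hδ => ?_
    obtain ⟨L₀, hL₀⟩ := h4 K _ (inv_pos' k) δ hδ
    set L' : ℝ := max L₀ j with hL'
    refine ⟨fun n => {E : ℝ | E ∈ Set.Icc a b ∧ 1 / ((k : ℝ) + 1) < prob (WW n d K) (fun ω => ∃ x y,
      1 / ((k : ℝ) + 1) < ‖starMat ω ((E : ℂ) + ((L' / n : ℝ) : ℂ) * Complex.I) x y -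
        KE d E K x y‖)} ∪ (Set.Icc a b)ᶜ, ?_, fun 𝒰 E hE => ⟨L', le_max_right _ _, ?_⟩⟩
    · filter_upwards [hL₀ L' (le_max_left _ _)] with n hn
      exact mu_union_compl_le a b hn
    · filter_upwards [hE] with n hn
      simp only [Set.mem_union, not_or, Set.mem_compl_iff, not_not] at hn
      by_contra hcon
      exact hn.1 ⟨hn.2, not_le.1 hcon⟩
  refine (Sel.all (admissible_le_atTop d) h1).mono fun 𝒰 E h K ε hε => ⟨0, fun L _ => ?_⟩
  obtain ⟨k, hk⟩ := exists_inv_le hε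
  obtain ⟨j, hj⟩ := exists_nat_ge L
  obtain ⟨L', hL', hB⟩ := h (K, k, j)
  refine ⟨L', hj.trans hL', ?_⟩
  filter_upwards [hB] with n hn
  refine (prob_mono fun ω _ => ?_).trans (hn.trans hk)
  rintro ⟨x, y, hxy⟩
  exact ⟨x, y, lt_of_le_of_lt hk hxy⟩

theorem sel_T5 (h5 : T5Vol d a b) : Sel (mu a b) (admissible d) (fun 𝒰 E => ∀ B : ℝ, ∀ ε > 0,
    ∃ M : ℝ, ∀ᶠ n in (𝒰 : Filter ℕ),
      avg (WW n d 1) (fun ω => ∑ i, if |xx (E n) ω.1 i| ≤ B ∧ M < phi ω.1 i (ω.2.1 0) ^ 2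
        then phi ω.1 i (ω.2.1 0) ^ 2 else 0) ≤ ε) := by
  have h1 : ∀ p : ℕ × ℕ, Sel (mu a b) (admissible d) (fun 𝒰 E => ∃ M : ℝ,
      ∀ᶠ n in (𝒰 : Filter ℕ),
        avg (WW n d 1) (fun ω => ∑ i, if |xx (E n) ω.1 i| ≤ (p.1 : ℝ) ∧
          M < phi ω.1 i (ω.2.1 0) ^ 2 then phi ω.1 i (ω.2.1 0) ^ 2 else 0) ≤
            1 / ((p.2 : ℝ) + 1)) := by
    rintro ⟨B, k⟩
    refine Sel.of_bad fun δ hδ => ?_
    obtain ⟨M, hM⟩ := h5 B _ (inv_pos' k) δ hδ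
    refine ⟨fun n => {E : ℝ | E ∈ Set.Icc a b ∧ 1 / ((k : ℝ) + 1) < avg (WW n d 1) (fun ω => ∑ i,
      if |xx E ω.1 i| ≤ (B : ℝ) ∧ M < phi ω.1 i (ω.2.1 0) ^ 2
        then phi ω.1 i (ω.2.1 0) ^ 2 else 0)} ∪ (Set.Icc a b)ᶜ, ?_, fun 𝒰 E hE => ⟨M, ?_⟩⟩
    · filter_upwards [hM] with n hn
      exact mu_union_compl_le a b hn
    · filter_upwards [hE] with n hn
      simp only [Set.mem_union, not_or, Set.mem_compl_iff, not_not] at hn
      by_contra hcon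
      exact hn.1 ⟨hn.2, not_le.1 hcon⟩
  refine (Sel.all (admissible_le_atTop d) h1).mono fun 𝒰 E h B ε hε => ?_
  obtain ⟨k, hk⟩ := exists_inv_le hε
  obtain ⟨B', hB'⟩ := exists_nat_ge B
  obtain ⟨M, hM⟩ := h (B', k)
  refine ⟨M, ?_⟩
  filter_upwards [hM] with n hn
  refine le_trans (avg_mono fun ω _ => Finset.sum_le_sum fun i _ => ?_) (hn.trans hk)
  by_cases h : |xx (E n) ω.1 i| ≤ B ∧ M < phi ω.1 i (ω.2.1 0) ^ 2
  · rw [if_pos h, if_pos ⟨h.1.trans hB', h.2⟩]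
  · rw [if_neg h]
    positivity

/-- the energies lie in the interval and converge -/
theorem sel_lim : Sel (mu a b) (admissible d) (fun 𝒰 E => ∃ E₀ ∈ Set.Icc a b,
    Tendsto E 𝒰 (𝓝 E₀)) := by
  have h1 : Sel (mu a b) (admissible d)
      (fun 𝒰 E => ∀ᶠ n in (𝒰 : Filter ℕ), E n ∈ Set.Icc a b) :=
    Sel.of_null (p := fun _ E => E ∈ Set.Icc a b) (Eventually.of_forall fun n => mu_compl a b)
  refine h1.mono fun 𝒰 E h => ?_
  have h2 : (𝒰.map E : Filter ℝ) ≤ 𝓟 (Set.Icc a b) := by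
    rw [Ultrafilter.coe_map, le_principal_iff]
    exact h
  obtain ⟨x, hx, hx'⟩ := isCompact_Icc.ultrafilter_le_nhds _ h2
  exact ⟨x, hx, by rwa [Ultrafilter.coe_map] at hx'⟩

theorem sel_nonsing : Sel (mu a b) (admissible d) (fun 𝒰 E => ∀ᶠ n in (𝒰 : Filter ℕ),
    ∀ G ∈ regularGraphs n d, ∀ D : Finset (Fin n), IsUnit (cutMat (adj G) D (E n : ℂ)).det) := by
  refine Sel.of_null (p := fun n (E : ℝ) => ∀ G ∈ regularGraphs n d, ∀ D : Finset (Fin n),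
    IsUnit (cutMat (adj G) D (E : ℂ)).det) (Eventually.of_forall fun n => ?_)
  exact le_antisymm ((mu_le a b _).trans (nonsing_null n d).le) zero_le

theorem sel_trans : Sel (mu a b) (admissible d) (fun 𝒰 E => ∀ᶠ n in (𝒰 : Filter ℕ),
    Transcendental ℤ (E n)) := by
  refine Sel.of_null (p := fun _ (E : ℝ) => Transcendental ℤ E) (Eventually.of_forall fun n => ?_)
  have h1 : {x : ℝ | ¬ Transcendental ℤ x} = {x : ℝ | IsAlgebraic ℤ x} := by
    ext x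
    simp [Transcendental]
  rw [h1]
  exact le_antisymm ((mu_le a b _).trans
    ((Algebraic.countable ℤ ℝ).measure_zero volume).le) zero_le

theorem sel_good (hd : 3 ≤ d) (ha : -(2 * Real.sqrt ((d : ℝ) - 1)) < a)
    (hb : b < 2 * Real.sqrt ((d : ℝ) - 1)) (h4 : T4Vol d a b) (h5 : T5Vol d a b) :
    Sel (mu a b) (admissible d) (fun 𝒰 E => (𝒰 : Filter ℕ) ≤ admissible d →
      ∃ E₀, GoodSeq d 𝒰 E E₀) := by
  have hl := admissible_le_atTop d
  refine ((sel_T1 d a b).and hl ((sel_T1' d a b).and hl ((sel_T2 d a b).and hl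
    ((sel_T3 d a b).and hl ((sel_T4 h4).and hl ((sel_T5 h5).and hl
      (sel_lim.and hl (sel_nonsing.and hl sel_trans)))))))).mono ?_
  rintro 𝒰 E ⟨t1, t1', t2, t3, t4, t5, ⟨E₀, hE₀, hlim⟩, ns, tr⟩ h𝒰
  refine ⟨E₀, ?_⟩
  exact
    { three := hd
      atTop := h𝒰.trans hl
      even := by
        have : (𝒰 : Filter ℕ) ≤ 𝓟 {n : ℕ | d < n ∧ Even (n * d)} := h𝒰.trans inf_le_right
        exact le_principal_iff.1 this
      bulk := abs_lt.2 ⟨ha.trans_le hE₀.1, hE₀.2.trans_lt hb⟩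
      lim := hlim
      nonsing := ns
      trans := tr
      T1 := t1
      T1' := t1'
      T2 := t2
      T3 := t3
      T4 := t4
      T5 := t5 }

end sel

/-- the Laplace functionals lie in `[0, 1]` -/
theorem abs_sub_le_one (n d : ℕ) (E : ℝ) {f : ℝ → ℝ} (hf : ∀ x, 0 ≤ f x) :
    |avg (regularGraphs n d) (fun G => Real.exp (-∫ x, f x ∂(Xi n d E G)))
        - ∫ w, Real.exp (-∫ x, f x ∂(XiGOE n w)) ∂(goeLaw n)| ≤ 1 := by
  have h1 : ∀ μ : Measure ℝ, Real.exp (-∫ x, f x ∂μ) ≤ 1 := fun μ => by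
    rw [Real.exp_le_one_iff, neg_nonpos]
    exact integral_nonneg hf
  have h2 : 0 ≤ avg (regularGraphs n d) (fun G => Real.exp (-∫ x, f x ∂(Xi n d E G))) :=
    avg_nonneg fun _ _ => (Real.exp_pos _).le
  have h3 : avg (regularGraphs n d) (fun G => Real.exp (-∫ x, f x ∂(Xi n d E G))) ≤ 1 :=
    avg_le_of_le zero_le_one fun _ _ => h1 _
  have h4 : 0 ≤ ∫ w, Real.exp (-∫ x, f x ∂(XiGOE n w)) ∂(goeLaw n) :=
    integral_nonneg fun _ => (Real.exp_pos _).le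
  have h5 : ∫ w, Real.exp (-∫ x, f x ∂(XiGOE n w)) ∂(goeLaw n) ≤ 1 := by
    have hp : IsProbabilityMeasure (goeLaw n) := by
      unfold goeLaw
      infer_instance
    refine (integral_mono_of_nonneg (Eventually.of_forall fun _ => (Real.exp_pos _).le)
      (integrable_const (1 : ℝ)) (Eventually.of_forall fun w => h1 _)).trans ?_
    simp
  rw [abs_le]
  constructor <;> linarith

/-- **Selection**: convergence along good sequences implies the energy averaged convergence. -/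
theorem specMain_of_vol {d : ℕ} (hd : 3 ≤ d) (h1 : SpecGoodLimit d)
    (h4 : ∀ a b : ℝ, a < b → -(2 * Real.sqrt ((d : ℝ) - 1)) < a →
      b < 2 * Real.sqrt ((d : ℝ) - 1) → T4Vol d a b)
    (h5 : ∀ a b : ℝ, a < b → -(2 * Real.sqrt ((d : ℝ) - 1)) < a →
      b < 2 * Real.sqrt ((d : ℝ) - 1) → T5Vol d a b) : SpecMain d := by
  intro a b hab ha hb f hfc hfs hf0
  by_contra hcon
  set g : ℕ → ℝ → ℝ := fun n E =>
    |avg (regularGraphs n d) (fun G => Real.exp (-∫ x, f x ∂(Xi n d E G)))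
        - ∫ w, Real.exp (-∫ x, f x ∂(XiGOE n w)) ∂(goeLaw n)| with hg
  have hint : ∀ n, ∫ E in a..b, g n E = ∫ E, g n E ∂(mu a b) := fun n => by
    rw [intervalIntegral.integral_of_le hab.le]
    rfl
  have hnn : ∀ n, 0 ≤ ∫ E, g n E ∂(mu a b) := fun n => integral_nonneg fun _ => abs_nonneg _
  -- frequently large
  obtain ⟨ε, hε, hfr⟩ : ∃ ε > 0, ∃ᶠ n in admissible d, 2 * ε ≤ ∫ E, g n E ∂(mu a b) := by
    rw [Metric.tendsto_nhds] at hcon
    push Not at hcon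
    obtain ⟨ε, hε, h⟩ := hcon
    refine ⟨ε / 2, by linarith, h.mono fun n hn => ?_⟩
    have h2 : ε ≤ dist (∫ E in a..b, g n E) 0 := hn
    rw [dist_zero_right, Real.norm_eq_abs, hint, abs_of_nonneg (hnn n)] at h2
    linarith
  have hfin : IsFiniteMeasure (mu a b) := by
    unfold mu
    infer_instance
  have hba : 0 < b - a := sub_pos.2 hab
  set c : ℝ := ε / (b - a) with hc
  have hcpos : 0 < c := div_pos hε hba
  have hvol : (mu a b Set.univ).toReal = b - a := by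
    unfold mu
    rw [Measure.restrict_apply_univ, Real.volume_Ioc, ENNReal.toReal_ofReal hba.le]
  have hD : ∃ᶠ n in admissible d, ENNReal.ofReal ε ≤ mu a b {E | c ≤ g n E} := by
    refine hfr.mono fun n hn => ?_
    refine measure_ge_of_integral (fun _ => abs_nonneg _) (fun E => abs_sub_le_one n d E hf0) hε
      hcpos ?_ hn
    rw [hvol, hc, div_mul_cancel₀ _ hba.ne']
  obtain ⟨𝒰, E, h𝒰, hED, hgood⟩ := (sel_good hd ha hb (h4 a b hab ha hb) (h5 a b hab ha hb)).exists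
    (fun n => {E | c ≤ g n E}) (by simpa using hε) hD 0
  obtain ⟨E₀, hE₀⟩ := hgood h𝒰
  have hlim := h1 𝒰 E E₀ hE₀ f hfc hfs hf0
  have hlim' := (tendsto_order.1 hlim.abs).2 c (by simpa using hcpos)
  obtain ⟨n, hn1, hn2⟩ := (hED.and hlim').exists
  exact absurd hn1 (not_le.2 hn2)

end

end Vale.Agent.P156.H942
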