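import Mathlib

/-! # Abstract selection lemma -/

open MeasureTheory Filter Topology Set

namespace Vale.Agent.P156.H942

variable {α : Type*} [MeasurableSpace α]

/-- A property of sequences `E` (along an ultrafilter) is selectable if it holds for all sequences
avoiding eventually some sets of arbitrarily small measure. -/
def Sel (μ : Measure α) (l : Filter ℕ) (S : Ultrafilter ℕ → (ℕ → α) → Prop) : Prop :=
  ∀ δ : ℝ, 0 < δ → ∃ B : ℕ → Set α, (∀ᶠ n in l, μ (B n) ≤ ENNReal.ofReal δ) ∧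
    ∀ (𝒰 : Ultrafilter ℕ) (E : ℕ → α), (𝒰 : Filter ℕ) ≤ l →
      (∀ᶠ n in (𝒰 : Filter ℕ), E n ∉ B n) → S 𝒰 E

theorem Sel.mono {μ : Measure α} {l : Filter ℕ} {S S' : Ultrafilter ℕ → (ℕ → α) → Prop}
    (h : Sel μ l S) (hS : ∀ 𝒰 E, S 𝒰 E → S' 𝒰 E) : Sel μ l S' := by
  intro δ hδ
  obtain ⟨B, h1, h2⟩ := h δ hδ
  exact ⟨B, h1, fun 𝒰 E h3 h4 => hS 𝒰 E (h2 𝒰 E h3 h4)⟩

/-- Selectable properties are closed under countable intersections. -/
theorem Sel.all_nat {μ : Measure α} {l : Filter ℕ} (hl : l ≤ atTop)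
    {S : ℕ → Ultrafilter ℕ → (ℕ → α) → Prop} (h : ∀ j, Sel μ l (S j)) :
    Sel μ l (fun 𝒰 E => ∀ j, S j 𝒰 E) := by
  classical
  intro δ hδ
  have hκ : ∀ j : ℕ, 0 < δ / 2 / 2 ^ j := fun j => by positivity
  choose B hB1 hB2 using fun j => h j (δ / 2 / 2 ^ j) (hκ j)
  -- the number of controlled conditions
  set P : ℕ → ℕ → Prop := fun n J => ∀ j < J, μ (B j n) ≤ ENNReal.ofReal (δ / 2 / 2 ^ j) with hP
  set J : ℕ → ℕ := fun n => Nat.findGreatest (P n) n with hJ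
  have hPJ : ∀ n, P n (J n) := by
    intro n
    have h0 : P n 0 := fun j hj => absurd hj (Nat.not_lt_zero j)
    exact Nat.findGreatest_spec (P := P n) (Nat.zero_le n) h0
  set A : ℕ → Set α := fun n => ⋃ j ∈ Finset.range (J n), B j n with hA
  have hAμ : ∀ n, μ (A n) ≤ ENNReal.ofReal δ := by
    intro n
    calc μ (A n) ≤ ∑ j ∈ Finset.range (J n), μ (B j n) := measure_biUnion_finset_le _ _
      _ ≤ ∑ j ∈ Finset.range (J n), ENNReal.ofReal (δ / 2 / 2 ^ j) :=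
        Finset.sum_le_sum fun j hj => hPJ n j (Finset.mem_range.1 hj)
      _ = ENNReal.ofReal (∑ j ∈ Finset.range (J n), δ / 2 / 2 ^ j) :=
        (ENNReal.ofReal_sum_of_nonneg fun j _ => (hκ j).le).symm
      _ ≤ ENNReal.ofReal δ := by
        refine ENNReal.ofReal_le_ofReal ?_
        have hs : HasSum (fun j : ℕ => δ / 2 / 2 ^ j) δ := hasSum_geometric_two' δ
        exact sum_le_hasSum _ (fun j _ => (hκ j).le) hs
  refine ⟨A, Eventually.of_forall hAμ, ?_⟩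
  intro 𝒰 E h𝒰 hE j
  refine hB2 j 𝒰 E h𝒰 ?_
  have h1 : ∀ᶠ n in l, ∀ i < j + 1, μ (B i n) ≤ ENNReal.ofReal (δ / 2 / 2 ^ i) := by
    have : ∀ᶠ n in l, ∀ i ∈ Finset.range (j + 1), μ (B i n) ≤ ENNReal.ofReal (δ / 2 / 2 ^ i) :=
      (Finset.eventually_all _).2 fun i _ => hB1 i
    filter_upwards [this] with n hn i hi
    exact hn i (Finset.mem_range.2 hi)
  have h2 : ∀ᶠ n in l, j + 1 ≤ n := hl (eventually_ge_atTop (j + 1))
  filter_upwards [hE, h𝒰 h1, h𝒰 h2] with n hn h3 h4 hmem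
  have h5 : j + 1 ≤ J n := Nat.le_findGreatest (P := P n) h4 h3
  refine hn ?_
  simp only [hA, mem_iUnion]
  exact ⟨j, Finset.mem_range.2 (by omega), hmem⟩

theorem Sel.all {μ : Measure α} {l : Filter ℕ} (hl : l ≤ atTop) {ι : Type*} [Countable ι]
    {S : ι → Ultrafilter ℕ → (ℕ → α) → Prop} (h : ∀ j, Sel μ l (S j)) :
    Sel μ l (fun 𝒰 E => ∀ j, S j 𝒰 E) := by
  rcases isEmpty_or_nonempty ι with hι | hι
  · intro δ hδ
    exact ⟨fun _ => ∅, Eventually.of_forall fun n => by simp, fun 𝒰 E _ _ j => hι.elim j⟩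
  · obtain ⟨f, hf⟩ := exists_surjective_nat ι
    refine (Sel.all_nat hl fun j => h (f j)).mono fun 𝒰 E h1 i => ?_
    obtain ⟨j, rfl⟩ := hf i
    exact h1 j

theorem Sel.and {μ : Measure α} {l : Filter ℕ} (hl : l ≤ atTop)
    {S S' : Ultrafilter ℕ → (ℕ → α) → Prop} (h : Sel μ l S) (h' : Sel μ l S') :
    Sel μ l (fun 𝒰 E => S 𝒰 E ∧ S' 𝒰 E) := by
  have h1 : ∀ b : Bool, Sel μ l (if b then S else S') := by
    intro b
    cases b
    · simpa using h'
    · simpa using h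
  refine (Sel.all hl h1).mono fun 𝒰 E h2 => ⟨?_, ?_⟩
  · simpa using h2 true
  · simpa using h2 false

/-- A sufficient condition. -/
theorem Sel.of_bad {μ : Measure α} {l : Filter ℕ} {S : Ultrafilter ℕ → (ℕ → α) → Prop}
    (h : ∀ δ : ℝ, 0 < δ → ∃ B : ℕ → Set α, (∀ᶠ n in l, μ (B n) ≤ ENNReal.ofReal δ) ∧
      ∀ (𝒰 : Ultrafilter ℕ) (E : ℕ → α), (∀ᶠ n in (𝒰 : Filter ℕ), E n ∉ B n) → S 𝒰 E) :
    Sel μ l S := by
  intro δ hδ
  obtain ⟨B, h1, h2⟩ := h δ hδ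
  exact ⟨B, h1, fun 𝒰 E _ h3 => h2 𝒰 E h3⟩

/-- A property holding almost everywhere for every `n` is selectable. -/
theorem Sel.of_null {μ : Measure α} {l : Filter ℕ} {p : ℕ → α → Prop}
    (h : ∀ᶠ n in l, μ {x | ¬ p n x} = 0) :
    Sel μ l (fun 𝒰 E => ∀ᶠ n in (𝒰 : Filter ℕ), p n (E n)) := by
  intro δ _
  refine ⟨fun n => {x | ¬ p n x}, ?_, ?_⟩
  · filter_upwards [h] with n hn
    rw [hn]
    exact zero_le
  · intro 𝒰 E _ hE
    filter_upwards [hE] with n hn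
    simpa using hn

/-- The selection. -/
theorem Sel.exists {μ : Measure α} {l : Filter ℕ} {S : Ultrafilter ℕ → (ℕ → α) → Prop}
    (h : Sel μ l S) (D : ℕ → Set α) {c : ENNReal} (hc : c ≠ 0) (hD : ∃ᶠ n in l, c ≤ μ (D n))
    (x₀ : α) :
    ∃ (𝒰 : Ultrafilter ℕ) (E : ℕ → α), (𝒰 : Filter ℕ) ≤ l ∧ (∀ᶠ n in (𝒰 : Filter ℕ), E n ∈ D n) ∧
      S 𝒰 E := by
  classical
  obtain ⟨δ, hδ, hδc⟩ : ∃ δ : ℝ, 0 < δ ∧ ENNReal.ofReal δ < c := by
    obtain ⟨r, hr0, hr⟩ := ENNReal.lt_iff_exists_nnreal_btwn.1 (pos_iff_ne_zero.2 hc)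
    refine ⟨r, by exact_mod_cast hr0, ?_⟩
    rwa [ENNReal.ofReal_coe_nnreal]
  obtain ⟨B, hB1, hB2⟩ := h δ hδ
  have hfr : ∃ᶠ n in l, c ≤ μ (D n) ∧ μ (B n) ≤ ENNReal.ofReal δ := hD.and_eventually hB1
  have hex : ∀ n, c ≤ μ (D n) ∧ μ (B n) ≤ ENNReal.ofReal δ → ∃ x, x ∈ D n ∧ x ∉ B n := by
    rintro n ⟨hn, hn'⟩
    by_contra hcon
    push Not at hcon
    have : μ (D n) ≤ μ (B n) := measure_mono hcon
    exact absurd ((hn.trans this).trans hn') (not_le.2 hδc)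
  set E : ℕ → α := fun n =>
    if h : c ≤ μ (D n) ∧ μ (B n) ≤ ENNReal.ofReal δ then (hex n h).choose else x₀ with hE
  have hEs : ∀ n, (c ≤ μ (D n) ∧ μ (B n) ≤ ENNReal.ofReal δ) → E n ∈ D n ∧ E n ∉ B n := by
    intro n hn
    have : E n = (hex n hn).choose := by simp [hE, hn]
    rw [this]
    exact (hex n hn).choose_spec
  have hne : NeBot (l ⊓ 𝓟 {n | c ≤ μ (D n) ∧ μ (B n) ≤ ENNReal.ofReal δ}) := by
    rw [← frequently_mem_iff_neBot]
    exact hfr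
  have h𝒰 := Ultrafilter.of_le (l ⊓ 𝓟 {n | c ≤ μ (D n) ∧ μ (B n) ≤ ENNReal.ofReal δ})
  have hev : ∀ᶠ n in (Ultrafilter.of (l ⊓ 𝓟 {n | c ≤ μ (D n) ∧ μ (B n) ≤ ENNReal.ofReal δ}) :
      Filter ℕ), c ≤ μ (D n) ∧ μ (B n) ≤ ENNReal.ofReal δ :=
    h𝒰 (mem_inf_of_right (mem_principal_self _))
  refine ⟨_, E, h𝒰.trans inf_le_left, ?_, hB2 _ E (h𝒰.trans inf_le_left) ?_⟩
  · filter_upwards [hev] with n hn
    exact (hEs n hn).1
  · filter_upwards [hev] with n hn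
    exact (hEs n hn).2

/-- If a function with values in `[0, 1]` has integral at least `2 ε` over a set of measure `V`,
then it is at least `c` on a set of measure `ε`, `c V ≤ ε`. -/
theorem measure_ge_of_integral {μ : Measure α} [IsFiniteMeasure μ]
    {g : α → ℝ} (h0 : ∀ x, 0 ≤ g x) (h1 : ∀ x, g x ≤ 1) {ε c : ℝ} (hε : 0 < ε) (hc : 0 < c)
    (hcV : c * (μ univ).toReal ≤ ε) (hint : 2 * ε ≤ ∫ x, g x ∂μ) :
    ENNReal.ofReal ε ≤ μ {x | c ≤ g x} := by
  have hmeas : AEStronglyMeasurable g μ := by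
    by_contra h
    rw [integral_non_aestronglyMeasurable h] at hint
    linarith
  rw [integral_eq_lintegral_of_nonneg_ae (Eventually.of_forall h0) hmeas] at hint
  have hle : ∫⁻ x, ENNReal.ofReal (g x) ∂μ ≤ ENNReal.ofReal c * μ univ + μ {x | c ≤ g x} := by
    calc ∫⁻ x, ENNReal.ofReal (g x) ∂μ
        ≤ ∫⁻ x, (ENNReal.ofReal c + (toMeasurable μ {x | c ≤ g x}).indicator 1 x) ∂μ := by
          refine lintegral_mono fun x => ?_
          by_cases hx : c ≤ g x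
          · have : x ∈ toMeasurable μ {x | c ≤ g x} := subset_toMeasurable _ _ hx
            rw [indicator_of_mem this]
            refine (ENNReal.ofReal_le_ofReal (h1 x)).trans ?_
            simp
          · exact (ENNReal.ofReal_le_ofReal (not_le.1 hx).le).trans le_self_add
      _ = ENNReal.ofReal c * μ univ + μ {x | c ≤ g x} := by
          rw [lintegral_add_left measurable_const, lintegral_const,
            lintegral_indicator_one (measurableSet_toMeasurable _ _), measure_toMeasurable]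
  by_contra hcon
  push Not at hcon
  have h2 : ∫⁻ x, ENNReal.ofReal (g x) ∂μ < ENNReal.ofReal (2 * ε) := by
    refine lt_of_le_of_lt hle ?_
    have h3 : ENNReal.ofReal c * μ univ ≤ ENNReal.ofReal ε := by
      rw [← ENNReal.ofReal_toReal (measure_ne_top μ univ), ← ENNReal.ofReal_mul hc.le]
      exact ENNReal.ofReal_le_ofReal hcV
    calc ENNReal.ofReal c * μ univ + μ {x | c ≤ g x}
        ≤ ENNReal.ofReal ε + μ {x | c ≤ g x} := by gcongr
      _ < ENNReal.ofReal ε + ENNReal.ofReal ε := by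
          exact ENNReal.add_lt_add_left ENNReal.ofReal_ne_top hcon
      _ = ENNReal.ofReal (2 * ε) := by rw [two_mul, ENNReal.ofReal_add hε.le hε.le]
  have h4 : (∫⁻ x, ENNReal.ofReal (g x) ∂μ).toReal < 2 * ε := by
    have := (ENNReal.toReal_lt_toReal h2.ne_top ENNReal.ofReal_ne_top).2 h2
    rwa [ENNReal.toReal_ofReal (by linarith)] at this
  linarith

end Vale.Agent.P156.H942
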